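import Vale.Agent.P281.H89.HK.HdAbs
import Vale.Agent.P301.H862.KZero

/-!
# P281, project T-HK: a `d'`-closed smooth `(p,0)`-form, `p ≥ 1`, on a compact Kähler manifold is a
holomorphic `p`-form plus a limit in `L²` of forms `d'v`
-/

open scoped Manifold ContDiff ComplexOrder Topology Matrix ComplexConjugate
open Vale.Agent.P272.K Vale.Agent.P272.K.C2 Vale.Agent.P299.H954 Vale.Agent.P299.IX
open Vale.Agent.P301.H599 MeasureTheory Set Filter Vale.Agent.P299.H863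
open Vale.Agent.P299.IX.Fock Vale.Agent.P301.H103 UniformSpace Vale.Agent.P301.H85
open Vale.Agent.P301.H862

set_option linter.unusedSectionVars false

noncomputable section

namespace Vale.Agent.P281.H89.HK

variable {d : ℕ} {X : Type} [TopologicalSpace X] {ι : Type} [ChartedSpace (Cm d) X]
  [IsManifold 𝓘(ℂ, Cm d) ω X] [T2Space X] [CompactSpace X]
  {L : LineBundle d X ι} {B : HB d X ι}

theorem Dp_of_D {C : HB d X ι} {s : C.S} (h : C.D s = 0) : C.Dp s = 0 ∧ C.Dd s = 0 := by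
  have h1 := HB.norm_D_sq (B := C) s
  rw [h, norm_zero] at h1
  have h2 : ‖C.Dp s‖ ^ 2 = 0 := by nlinarith [sq_nonneg ‖C.Dp s‖, sq_nonneg ‖C.Dd s‖]
  have h3 : ‖C.Dd s‖ ^ 2 = 0 := by nlinarith [sq_nonneg ‖C.Dp s‖, sq_nonneg ‖C.Dd s‖]
  exact ⟨norm_eq_zero.1 (pow_eq_zero_iff two_ne_zero |>.1 h2),
    norm_eq_zero.1 (pow_eq_zero_iff two_ne_zero |>.1 h3)⟩

theorem norm_dgL_completion_le {H : Type*} [NormedAddCommGroup H] [InnerProductSpace ℂ H]
    {A : Ell H} {m : ℕ} (G : A.Grading m) (p : ℕ) (x : Completion H) :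
    ‖(dgL G p).completion x‖ ≤ ‖x‖ := by
  refine Completion.induction_on x (isClosed_le ?_ continuous_norm) fun u => ?_
  · exact (dgL G p).completion.continuous.norm
  · rw [ContinuousLinearMap.completion_apply_coe, Completion.norm_coe, Completion.norm_coe]
    refine ((dgL G p).le_opNorm u).trans ?_
    have h1 : ‖dgL G p‖ ≤ 1 := LinearMap.mkContinuous_norm_le _ zero_le_one _
    calc ‖dgL G p‖ * ‖u‖ ≤ 1 * ‖u‖ := mul_le_mul_of_nonneg_right h1 (norm_nonneg _)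
      _ = ‖u‖ := one_mul _

theorem hodge_aux (C : HB d X ι) (hsk : ∀ p : ℕ, skd C.grading p = (C.kerd p).map
    (Completion.toComplₗᵢ : C.S →ₗᵢ[ℂ] Completion C.S).toLinearMap) (p : ℕ) {s : C.S}
    (hs : C.dg (p + 1) s = s) (hc : C.Dp s = 0) : ∃ h ∈ C.kerd (p + 1), ∀ ε : ℝ, 0 < ε →
      ∃ v : C.S, C.dg p v = v ∧ ‖s - h - C.Dp v‖ ≤ ε := by
  by_cases hpd : p + 1 ≤ d
  swap
  · have h0 : s = 0 := by rw [← hs]; exact HB.dg_big (p + 1) (by omega) s
    refine ⟨0, Submodule.zero_mem _, fun ε hε => ⟨0, map_zero _, ?_⟩⟩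
    rw [h0, map_zero]
    simpa using hε.le
  set G := C.grading with hG
  have hmem : p + 1 ∈ Finset.range (d + 1) := Finset.mem_range.2 (by omega)
  have hpt : s ∈ C.ell.pt ((-1) ^ (p + 1)) := by
    have h1 := dg_mem_pt G hmem (s := (-1) ^ (p + 1)) rfl s
    have h2 : G.dg (p + 1) s = s := hs
    rwa [h2] at h1
  obtain ⟨z2, hz2, hz⟩ := sk_decomp C.ell hpt
  have hdgs : p + 1 ∈ dgs d ((-1) ^ (p + 1)) := mem_dgs.2 ⟨hmem, rfl⟩
  have h1 := dgL_sk G hdgs hz2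
  rw [hsk] at h1
  obtain ⟨h, hh, hhz⟩ := h1
  have hhz' : (h : Completion C.S) = (dgL G (p + 1)).completion z2 := hhz
  have hh' := HB.mem_kerd.1 hh
  refine ⟨h, hh, fun ε hε => ?_⟩
  obtain ⟨v, hv, hv2⟩ := hz ε hε
  refine ⟨C.dg p v, by rw [HB.dg_dg, if_pos rfl], ?_⟩
  -- apply the projection to the degree `p + 1`
  have e1 : ((C.dg (p + 1) (C.D v) + h - s : C.S) : Completion C.S) =
      (dgL G (p + 1)).completion (((C.D v : C.S) : Completion C.S) + z2 - (s : Completion C.S)) := by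
    rw [map_sub, map_add, ← hhz', ContinuousLinearMap.completion_apply_coe,
      ContinuousLinearMap.completion_apply_coe, dgL_apply, dgL_apply]
    have h2 : G.dg (p + 1) s = s := hs
    rw [h2, Completion.coe_sub, Completion.coe_add]
    rfl
  have e2 : ‖C.dg (p + 1) (C.D v) + h - s‖ ≤ ε := by
    rw [← Completion.norm_coe, e1]
    exact (norm_dgL_completion_le G (p + 1) _).trans hv2
  -- the component `Dd` is orthogonal to the other ones
  set a := C.dg p v with ha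
  set b := C.dg (p + 2) v with hb
  have e4 : C.dg (p + 1) (C.D v) = C.Dp a + C.Dd b := by
    rw [HB.D_eq, map_add, ha, hb, HB.Dp_dg, HB.Dd_dg_succ]
  have hDh := Dp_of_D hh'.1
  have o1 : inner ℂ (C.Dd b) s = 0 := by rw [HB.inner_Dd, hc, inner_zero_right]
  have o2 : inner ℂ (C.Dd b) h = 0 := by rw [HB.inner_Dd, hDh.1, inner_zero_right]
  have o3 : inner ℂ (C.Dd b) (C.Dp a) = 0 := by rw [HB.inner_Dd, HB.Dp_Dp, inner_zero_right]
  set x := C.Dp a + h - s with hx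
  have o4 : inner ℂ (C.Dd b) x = 0 := by
    rw [hx, inner_sub_right, inner_add_right, o1, o2, o3]; simp
  have e5 : ‖C.Dd b + x‖ ^ 2 = ‖C.Dd b‖ ^ 2 + ‖x‖ ^ 2 := by
    rw [@norm_add_sq ℂ, o4]; simp
  have e6 : C.dg (p + 1) (C.D v) + h - s = C.Dd b + x := by rw [e4, hx]; abel
  rw [e6] at e2
  have e7 : ‖s - h - C.Dp a‖ = ‖x‖ := by
    rw [hx, ← norm_neg]
    congr 1
    abel
  rw [e7]
  have e8 : ‖x‖ ^ 2 ≤ ‖C.Dd b + x‖ ^ 2 := by rw [e5]; nlinarith [sq_nonneg ‖C.Dd b‖]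
  exact (abs_le_of_sq_le_sq' e8 (norm_nonneg _)).2.trans e2

/-- **Hodge decomposition of `d'`-closed forms of degree `p + 1`.** -/
theorem hodge (B : HB d X ι) (p : ℕ) {s : (B.pow 0).S} (hs : (B.pow 0).dg (p + 1) s = s)
    (hc : (B.pow 0).Dp s = 0) : ∃ h ∈ (B.pow 0).kerd (p + 1), ∀ ε : ℝ, 0 < ε →
      ∃ v : (B.pow 0).S, (B.pow 0).dg p v = v ∧ ‖s - h - (B.pow 0).Dp v‖ ≤ ε :=
  hodge_aux (B.pow 0) (fun p => HB.skd_eq (B := B) p) p hs hc

end Vale.Agent.P281.H89.HK
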