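import Vale.Agent.P281.H89.HK.HT
import Vale.Agent.P281.H189.HK.HT
import Vale.Agent.P281.H83.HK.Spec

/-!
# P281, project T-HK, block HT (helper189, helper89): `HTStmt`, without inputs
-/

open Set Filter Metric MeasureTheory Vale.Agent.P272.K
open scoped Topology ContDiff ComplexConjugate ComplexOrder

noncomputable section

namespace Vale.Agent.P281.H89.HK

theorem h2c : H2cStmt := by
  intro d E Γ _ _ _ _ _ _ _ S w u _ hw h1 h2 h3 h4
  obtain ⟨h, hh, hap⟩ := Vale.Agent.P281.H189.HK.hodge20 hw ⟨h1, h2, h3⟩ h4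
  refine ⟨h, hh, fun ε hε => ?_⟩
  obtain ⟨v, hv, h5⟩ := hap ε hε
  exact ⟨v, hv.smooth, hv.change, h5⟩

/-- **HT**: the `(2,0)`-part of a closed form is a closed holomorphic 2-form, up to the closure in
`L²` of the `∂β`. -/
theorem ht : Vale.Agent.P281.H83.HK.HTStmt := by
  intro d E Γ _ _ _ _ _ _ _ S w α hd hw hα
  exact htCore h2c d E Γ S w α hd hw hα

end Vale.Agent.P281.H89.HK
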