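import Vale.Agent.P301.H85.SC.Lef
import Vale.Agent.P301.H862.Wt

/-!
# P281, project T-HK: forms of type `(1,0)` and `(2,0)` in the Fock encoding

`F1 b = ∑ b_k dz_k`, `F2 a = (1/2) ∑ a_{jk} dz_j ∧ dz_k`.
-/

open scoped Manifold ContDiff ComplexOrder Topology Matrix ComplexConjugate
open Vale.Agent.P272.K Vale.Agent.P272.K.C2 Vale.Agent.P299.H954 Vale.Agent.P299.IX
open Vale.Agent.P299.IX.Fock Vale.Agent.P301.H862 Vale.Agent.P301.H85

noncomputable section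

namespace Vale.Agent.P281.H89.HK

variable {d : ℕ}

/-- the `(1,0)`-form `∑ b_k dz_k` -/
def F1 (b : Fin d → ℂ) : FI d → ℂ := oneF b

/-- the `(2,0)`-form `(1/2) ∑ a_{jk} dz_j ∧ dz_k` -/
def F2 (a : Matrix (Fin d) (Fin d) ℂ) : FI d → ℂ := Sop a *ᵥ ev ∅

/-- the coefficients of a form of degree one -/
def oneV (u : FI d → ℂ) : Fin d → ℂ := fun k => (iot k *ᵥ u) ∅

theorem F1_eq (b : Fin d → ℂ) : F1 b = ∑ k, b k • (eps k *ᵥ ev ∅) := by
  rw [F1, oneF, epsV, Matrix.sum_mulVec]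
  exact Finset.sum_congr rfl fun k _ => Matrix.smul_mulVec _ _ _

theorem F2_eq (a : Matrix (Fin d) (Fin d) ℂ) :
    F2 a = (1 / 2 : ℂ) • ∑ i, ∑ j, a i j • (eps i *ᵥ (eps j *ᵥ ev ∅)) := by
  rw [F2, Sop, Matrix.smul_mulVec, Matrix.sum_mulVec]
  congr 1
  refine Finset.sum_congr rfl fun i _ => ?_
  rw [← Matrix.mulVec_mulVec, epsV, Matrix.sum_mulVec, Matrix.mulVec_sum]
  refine Finset.sum_congr rfl fun j _ => ?_
  rw [Matrix.smul_mulVec, Matrix.mulVec_smul]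

theorem F2_eq_sPow (a : Matrix (Fin d) (Fin d) ℂ) : F2 a = sPow a 1 := by
  rw [sPow, pow_one, F2]

theorem lam_F1 (M : Matrix (Fin d) (Fin d) ℂ) (b : Fin d → ℂ) : lam M *ᵥ F1 b = F1 (M *ᵥ b) :=
  lam_oneF M b

theorem lam_F2 (M a : Matrix (Fin d) (Fin d) ℂ) : lam M *ᵥ F2 a = F2 (M * a * Mᵀ) := by
  rw [F2_eq_sPow, F2_eq_sPow, lam_sPow]

theorem lam_F1' (J : Matrix (Fin d) (Fin d) ℂ) (b : Fin d → ℂ) :
    lam Jᵀ *ᵥ F1 b = F1 fun k => ∑ p, J p k * b p := lam_F1 _ _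

theorem lam_F2' (J a : Matrix (Fin d) (Fin d) ℂ) : lam Jᵀ *ᵥ F2 a = F2 (Jᵀ * a * J) := by
  rw [lam_F2, Matrix.transpose_transpose]

theorem F1_deg (b : Fin d → ℂ) {I : FI d} (hI : I.card ≠ 1) : F1 b I = 0 := oneF_deg b hI

theorem F2_deg (a : Matrix (Fin d) (Fin d) ℂ) {I : FI d} (hI : I.card ≠ 2) : F2 a I = 0 := by
  rw [F2_eq_sPow]; exact sPow_deg 1 hI

theorem F1_add (b b' : Fin d → ℂ) : F1 (b + b') = F1 b + F1 b' := by
  simp only [F1_eq, Pi.add_apply, add_smul, Finset.sum_add_distrib]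

theorem F1_smul (c : ℂ) (b : Fin d → ℂ) : F1 (c • b) = c • F1 b := by
  simp only [F1_eq, Pi.smul_apply, smul_eq_mul, mul_smul, Finset.smul_sum]

theorem F1_neg (b : Fin d → ℂ) : F1 (-b) = -F1 b := by
  rw [← neg_one_smul ℂ b, F1_smul, neg_one_smul]

theorem F1_sub (b b' : Fin d → ℂ) : F1 (b - b') = F1 b - F1 b' := by
  rw [sub_eq_add_neg, F1_add, F1_neg, sub_eq_add_neg]

theorem F1_zero : F1 (0 : Fin d → ℂ) = 0 := by
  simp only [F1_eq, Pi.zero_apply, zero_smul, Finset.sum_const_zero]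

theorem F2_add (a a' : Matrix (Fin d) (Fin d) ℂ) : F2 (a + a') = F2 a + F2 a' := by
  simp only [F2_eq, Matrix.add_apply, add_smul, Finset.sum_add_distrib, smul_add]

theorem F2_smul (c : ℂ) (a : Matrix (Fin d) (Fin d) ℂ) : F2 (c • a) = c • F2 a := by
  rw [F2_eq, F2_eq, smul_comm c, Finset.smul_sum]
  simp only [Matrix.smul_apply, smul_eq_mul, mul_smul, Finset.smul_sum]

theorem F2_neg (a : Matrix (Fin d) (Fin d) ℂ) : F2 (-a) = -F2 a := by
  rw [← neg_one_smul ℂ a, F2_smul, neg_one_smul]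

theorem F2_sub (a a' : Matrix (Fin d) (Fin d) ℂ) : F2 (a - a') = F2 a - F2 a' := by
  rw [sub_eq_add_neg, F2_add, F2_neg, sub_eq_add_neg]

theorem F2_zero : F2 (0 : Matrix (Fin d) (Fin d) ℂ) = 0 := by
  simp only [F2_eq, Matrix.zero_apply, zero_smul, Finset.sum_const_zero, smul_zero]

/-! ### contractions -/

theorem iot_F1 (k : Fin d) (b : Fin d → ℂ) : iot k *ᵥ F1 b = b k • ev ∅ := by
  rw [F1, oneF, Matrix.mulVec_mulVec]
  have h1 : iot k * epsV b = b k • 1 - epsV b * iot k := by rw [← iot_epsV k b]; abel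
  rw [h1, Matrix.sub_mulVec, ← Matrix.mulVec_mulVec, iot_ev_empty, Matrix.mulVec_zero, sub_zero,
    Matrix.smul_mulVec, Matrix.one_mulVec]

theorem iot_F2 {a : Matrix (Fin d) (Fin d) ℂ} (ha : aᵀ = -a) (k : Fin d) :
    iot k *ᵥ F2 a = F1 (a k) := by
  rw [F2, Matrix.mulVec_mulVec, iot_Sop ha, Matrix.add_mulVec, ← Matrix.mulVec_mulVec,
    iot_ev_empty, Matrix.mulVec_zero, zero_add, F1, oneF]

theorem iot_eps_mulVec (k l : Fin d) (u : FI d → ℂ) :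
    iot k *ᵥ (eps l *ᵥ u) = (if k = l then u else 0) - eps l *ᵥ (iot k *ᵥ u) := by
  rw [Matrix.mulVec_mulVec, Matrix.mulVec_mulVec]
  have h1 : (iot k * eps l : FM d) = (if k = l then 1 else 0) - eps l * iot k := by
    rw [← car k l]; abel
  rw [h1, Matrix.sub_mulVec]
  congr 1
  split_ifs
  · rw [Matrix.one_mulVec]
  · rw [Matrix.zero_mulVec]

theorem ev_empty_empty : (ev ∅ : FI d → ℂ) ∅ = 1 := by rw [ev, Pi.single_eq_same]

theorem oneV_F1 (b : Fin d → ℂ) : oneV (F1 b) = b := by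
  ext k
  rw [oneV, iot_F1, Pi.smul_apply, ev_empty_empty, smul_eq_mul, mul_one]

theorem twoM_F2 {a : Matrix (Fin d) (Fin d) ℂ} (ha : aᵀ = -a) : twoM (F2 a) = a := by
  ext i j
  rw [twoM, Matrix.of_apply, iot_F2 ha, iot_F1, Pi.smul_apply, ev_empty_empty, smul_eq_mul,
    mul_one]

theorem F2_twoM {u : FI d → ℂ} (hu : ∀ I : FI d, I.card ≠ 2 → u I = 0) : F2 (twoM u) = u :=
  Sop_twoM hu

theorem F1_oneV {u : FI d → ℂ} (hu : ∀ I : FI d, I.card ≠ 1 → u I = 0) : F1 (oneV u) = u := by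
  have h1 : ∑ i, eps i *ᵥ (iot i *ᵥ u) = u := by
    have h2 : ∑ i, eps i *ᵥ (iot i *ᵥ u) = (Nop : FM d) *ᵥ u := by
      rw [← sum_eps_iot, Matrix.sum_mulVec]
      exact Finset.sum_congr rfl fun i _ => Matrix.mulVec_mulVec _ _ _
    rw [h2]
    ext I
    rw [Nop, dgl_mulVec]
    by_cases hI : I.card = 1
    · rw [hI, Nat.cast_one, one_mul]
    · rw [hu I hI, mul_zero]
  have h3 : ∀ k, iot k *ᵥ u = oneV u k • ev ∅ := by
    intro k
    ext I
    rw [Pi.smul_apply, smul_eq_mul, ev, Pi.single_apply]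
    by_cases hI : I = ∅
    · rw [hI, if_pos rfl, mul_one]; rfl
    · rw [if_neg hI, mul_zero, iot_mulVec]
      split_ifs with h
      · rfl
      · rw [hu, mul_zero]
        rw [Finset.card_insert_of_notMem h]
        intro h4
        exact hI (Finset.card_eq_zero.1 (by omega))
  conv_rhs => rw [← h1]
  rw [F1_eq]
  refine Finset.sum_congr rfl fun k _ => ?_
  rw [h3, Matrix.mulVec_smul]

theorem F1_inj {b b' : Fin d → ℂ} (h : F1 b = F1 b') : b = b' := by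
  rw [← oneV_F1 b, h, oneV_F1]

theorem F2_inj {a a' : Matrix (Fin d) (Fin d) ℂ} (ha : aᵀ = -a) (ha' : a'ᵀ = -a')
    (h : F2 a = F2 a') : a = a' := by
  rw [← twoM_F2 ha, h, twoM_F2 ha']

/-! ### the exterior derivative -/

/-- `d(∑ b_k dz_k)`, `D j k = ∂_j b_k` -/
theorem sum_eps_F1 (D : Fin d → Fin d → ℂ) :
    ∑ l, eps l *ᵥ F1 (D l) = F2 (Matrix.of fun j k => D j k - D k j) := by
  have h1 : ∑ l, eps l *ᵥ F1 (D l) = ∑ i, ∑ j, D i j • (eps i *ᵥ (eps j *ᵥ ev ∅)) := by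
    refine Finset.sum_congr rfl fun i _ => ?_
    rw [F1_eq, Matrix.mulVec_sum]
    exact Finset.sum_congr rfl fun j _ => Matrix.mulVec_smul _ _ _
  have h2 : ∑ i, ∑ j, D j i • (eps i *ᵥ (eps j *ᵥ ev ∅)) =
      -∑ i, ∑ j, D i j • (eps i *ᵥ (eps j *ᵥ (ev ∅ : FI d → ℂ))) := by
    rw [Finset.sum_comm, ← Finset.sum_neg_distrib]
    refine Finset.sum_congr rfl fun i _ => ?_
    rw [← Finset.sum_neg_distrib]
    refine Finset.sum_congr rfl fun j _ => ?_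
    rw [← smul_neg]
    congr 1
    rw [Matrix.mulVec_mulVec, eps_eps, Matrix.neg_mulVec, ← Matrix.mulVec_mulVec]
  rw [h1, F2_eq]
  simp only [Matrix.of_apply, sub_smul, Finset.sum_sub_distrib]
  rw [h2, sub_neg_eq_add, ← two_smul ℂ, smul_smul]
  norm_num

/-- `d((1/2) ∑ a_{jk} dz_j ∧ dz_k)`, `D l j k = ∂_l a_{jk}` -/
theorem sum_eps_F2 {D : Fin d → Matrix (Fin d) (Fin d) ℂ} (hD : ∀ l, (D l)ᵀ = -D l) :
    ∑ l, eps l *ᵥ F2 (D l) = 0 ↔ ∀ i j k, D i j k + D j k i + D k i j = 0 := by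
  have hsk : ∀ l i j, D l i j = -D l j i := by
    intro l i j
    have := congrFun (congrFun (hD l) j) i
    simpa using this
  constructor
  · intro h i j k
    have h1 : iot i *ᵥ ∑ l, eps l *ᵥ F2 (D l) = F2 (D i) - ∑ l, eps l *ᵥ F1 (D l i) := by
      rw [Matrix.mulVec_sum]
      simp only [iot_eps_mulVec, iot_F2 (hD _)]
      rw [Finset.sum_sub_distrib, Finset.sum_ite_eq, if_pos (Finset.mem_univ _)]
    have h2 : iot j *ᵥ (iot i *ᵥ ∑ l, eps l *ᵥ F2 (D l)) =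
        F1 (D i j) - (F1 (D j i) - F1 (fun l => D l i j)) := by
      rw [h1, Matrix.mulVec_sub, iot_F2 (hD i), Matrix.mulVec_sum]
      congr 1
      simp only [iot_eps_mulVec, iot_F1]
      rw [Finset.sum_sub_distrib, Finset.sum_ite_eq, if_pos (Finset.mem_univ _)]
      congr 1
      rw [F1_eq]
      exact Finset.sum_congr rfl fun l _ => Matrix.mulVec_smul _ _ _
    rw [h, Matrix.mulVec_zero, Matrix.mulVec_zero] at h2
    have h3 : oneV (F1 (D i j - (D j i - fun l => D l i j))) k = 0 := by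
      rw [F1_sub, F1_sub, ← h2, oneV, Matrix.mulVec_zero]
      rfl
    rw [oneV_F1] at h3
    have h4 : D i j k - (D j i k - D k i j) = 0 := h3
    rw [hsk j k i]
    linear_combination h4
  · intro h
    have h0 : ∑ l, eps l *ᵥ F2 (D l) =
        (1 / 2 : ℂ) • ∑ l, ∑ i, ∑ j, D l i j • (eps l *ᵥ (eps i *ᵥ (eps j *ᵥ ev ∅))) := by
      rw [Finset.smul_sum]
      refine Finset.sum_congr rfl fun l _ => ?_
      rw [F2_eq, Matrix.mulVec_smul, Matrix.mulVec_sum]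
      congr 1
      refine Finset.sum_congr rfl fun i _ => ?_
      rw [Matrix.mulVec_sum]
      exact Finset.sum_congr rfl fun j _ => Matrix.mulVec_smul _ _ _
    have hcyc : ∀ l i j : Fin d, (eps l *ᵥ (eps i *ᵥ (eps j *ᵥ ev ∅)) : FI d → ℂ) =
        eps i *ᵥ (eps j *ᵥ (eps l *ᵥ ev ∅)) := by
      intro l i j
      simp only [Matrix.mulVec_mulVec]
      congr 1
      rw [← Matrix.mul_assoc, eps_eps l i, Matrix.neg_mul, Matrix.mul_assoc, eps_eps l j,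
        Matrix.mul_neg, neg_neg]
    have e1 : ∀ T : Fin d → Fin d → Fin d → ℂ,
        ∑ l, ∑ i, ∑ j, T l i j • (eps l *ᵥ (eps i *ᵥ (eps j *ᵥ (ev ∅ : FI d → ℂ)))) =
        ∑ l, ∑ i, ∑ j, T j l i • (eps l *ᵥ (eps i *ᵥ (eps j *ᵥ ev ∅))) := by
      intro T
      calc ∑ l, ∑ i, ∑ j, T l i j • (eps l *ᵥ (eps i *ᵥ (eps j *ᵥ (ev ∅ : FI d → ℂ)))) =
          ∑ l, ∑ i, ∑ j, T l i j • (eps i *ᵥ (eps j *ᵥ (eps l *ᵥ (ev ∅ : FI d → ℂ)))) :=
            Finset.sum_congr rfl fun l _ => Finset.sum_congr rfl fun i _ =>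
              Finset.sum_congr rfl fun j _ => by rw [hcyc l i j]
        _ = ∑ i, ∑ l, ∑ j, T l i j • (eps i *ᵥ (eps j *ᵥ (eps l *ᵥ (ev ∅ : FI d → ℂ)))) :=
            Finset.sum_comm
        _ = ∑ i, ∑ j, ∑ l, T l i j • (eps i *ᵥ (eps j *ᵥ (eps l *ᵥ (ev ∅ : FI d → ℂ)))) :=
            Finset.sum_congr rfl fun i _ => Finset.sum_comm
    set Y : FI d → ℂ :=
      ∑ l, ∑ i, ∑ j, D l i j • (eps l *ᵥ (eps i *ᵥ (eps j *ᵥ (ev ∅ : FI d → ℂ)))) with hY
    have e2 : Y = ∑ l, ∑ i, ∑ j, D j l i • (eps l *ᵥ (eps i *ᵥ (eps j *ᵥ ev ∅))) := e1 D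
    have e3 : Y = ∑ l, ∑ i, ∑ j, D i j l • (eps l *ᵥ (eps i *ᵥ (eps j *ᵥ ev ∅))) := by
      rw [e2]; exact e1 fun l i j => D j l i
    have e4 : (3 : ℂ) • Y = 0 := by
      have e5 : (3 : ℂ) • Y = Y + Y + Y := by
        rw [show (3 : ℂ) = 1 + 1 + 1 by norm_num, add_smul, add_smul, one_smul]
      rw [e5]
      refine (congrArg₂ (· + ·) (congrArg₂ (· + ·) hY e3) e2).trans ?_
      rw [← Finset.sum_add_distrib, ← Finset.sum_add_distrib]
      refine Finset.sum_eq_zero fun l _ => ?_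
      rw [← Finset.sum_add_distrib, ← Finset.sum_add_distrib]
      refine Finset.sum_eq_zero fun i _ => ?_
      rw [← Finset.sum_add_distrib, ← Finset.sum_add_distrib]
      refine Finset.sum_eq_zero fun j _ => ?_
      rw [← add_smul, ← add_smul, h l i j, zero_smul]
    have e6 : Y = 0 := by
      rcases smul_eq_zero.1 e4 with h1 | h1
      · norm_num at h1
      · exact h1
    rw [h0, e6, smul_zero]

/-! ### derivatives -/

theorem VC_F1 {m : WithTop ℕ∞} {b : Cm d → Fin d → ℂ} {z : Cm d}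
    (h : ∀ k, ContDiffAt ℝ m (fun y => b y k) z) : VC m (fun y => F1 (b y)) z := by
  simp only [F1_eq]
  exact VC.sum _ fun k _ => VC.smul (h k) fun _ => contDiffAt_const

theorem VC_F2 {m : WithTop ℕ∞} {a : Cm d → Matrix (Fin d) (Fin d) ℂ} {z : Cm d}
    (h : ∀ j k, ContDiffAt ℝ m (fun y => a y j k) z) : VC m (fun y => F2 (a y)) z := by
  simp only [F2_eq]
  exact VC.smul contDiffAt_const
    (VC.sum _ fun i _ => VC.sum _ fun j _ => VC.smul (h i j) fun _ => contDiffAt_const)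

theorem contDiffAt_oneV {m : WithTop ℕ∞} {u : Cm d → FI d → ℂ} {z : Cm d} (h : VC m u z)
    (k : Fin d) : ContDiffAt ℝ m (fun y => oneV (u y) k) z :=
  VC_constMul (iot k) h ∅

theorem contDiffAt_twoM {m : WithTop ℕ∞} {u : Cm d → FI d → ℂ} {z : Cm d} (h : VC m u z)
    (i j : Fin d) : ContDiffAt ℝ m (fun y => twoM (u y) i j) z :=
  VC_constMul (iot j) (VC_constMul (iot i) h) ∅

/-- entrywise derivative of a matrix -/
def dM (l : Fin d) (a : Cm d → Matrix (Fin d) (Fin d) ℂ) (z : Cm d) : Matrix (Fin d) (Fin d) ℂ :=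
  Matrix.of fun j k => dz l (fun y => a y j k) z

theorem DV_const_vec {κ : Type*} (l : Fin d) (v : κ → ℂ) (f : Cm d → ℂ) {z : Cm d}
    (h : DifferentiableAt ℝ f z) : DV l (fun y => f y • v) z = dz l f z • v := by
  ext i
  simp only [DV, Pi.smul_apply, smul_eq_mul]
  exact dz_mul_const l (v i) h

theorem DV_F1 {b : Cm d → Fin d → ℂ} {z : Cm d} (h : ∀ k, ContDiffAt ℝ 1 (fun y => b y k) z)
    (l : Fin d) : DV l (fun y => F1 (b y)) z = F1 fun k => dz l (fun y => b y k) z := by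
  simp only [F1_eq]
  have h1 : ∀ k ∈ (Finset.univ : Finset (Fin d)),
      VC 1 (fun y => b y k • (eps k *ᵥ (ev ∅ : FI d → ℂ))) z := fun k _ =>
    VC.smul (h k) fun _ => contDiffAt_const
  rw [DV_sum Finset.univ h1]
  exact Finset.sum_congr rfl fun k _ => DV_const_vec l _ _ ((h k).differentiableAt one_ne_zero)

theorem DV_F2 {a : Cm d → Matrix (Fin d) (Fin d) ℂ} {z : Cm d}
    (h : ∀ j k, ContDiffAt ℝ 1 (fun y => a y j k) z) (l : Fin d) :
    DV l (fun y => F2 (a y)) z = F2 (dM l a z) := by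
  have h1 : ∀ y, F2 (a y) = ∑ i, ∑ j, a y i j • ((1 / 2 : ℂ) • (eps i *ᵥ (eps j *ᵥ ev ∅))) := by
    intro y
    rw [F2_eq, Finset.smul_sum]
    refine Finset.sum_congr rfl fun i _ => ?_
    rw [Finset.smul_sum]
    exact Finset.sum_congr rfl fun j _ => smul_comm _ _ _
  simp only [h1]
  have h2 : ∀ i, ∀ j ∈ (Finset.univ : Finset (Fin d)),
      VC 1 (fun y => a y i j • ((1 / 2 : ℂ) • (eps i *ᵥ (eps j *ᵥ (ev ∅ : FI d → ℂ))))) z :=
    fun i j _ => VC.smul (h i j) fun _ => contDiffAt_const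
  have h3 : ∀ i ∈ (Finset.univ : Finset (Fin d)),
      VC 1 (fun y => ∑ j, a y i j • ((1 / 2 : ℂ) • (eps i *ᵥ (eps j *ᵥ (ev ∅ : FI d → ℂ))))) z :=
    fun i _ => VC.sum _ (h2 i)
  rw [DV_sum Finset.univ h3, F2_eq, Finset.smul_sum]
  refine Finset.sum_congr rfl fun i _ => ?_
  rw [DV_sum Finset.univ (h2 i), Finset.smul_sum]
  refine Finset.sum_congr rfl fun j _ => ?_
  rw [DV_const_vec l _ _ ((h i j).differentiableAt one_ne_zero), dM, Matrix.of_apply]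
  exact smul_comm _ _ _

/-- `d(∑ b_k dz_k)` -/
theorem dF1 {b : Cm d → Fin d → ℂ} {z : Cm d} (h : ∀ k, ContDiffAt ℝ 1 (fun y => b y k) z) :
    ∑ l, eps l *ᵥ DV l (fun y => F1 (b y)) z =
      F2 (Matrix.of fun j k => dz j (fun y => b y k) z - dz k (fun y => b y j) z) := by
  simp only [DV_F1 h]
  exact sum_eps_F1 fun j k => dz j (fun y => b y k) z

/-- `d((1/2) ∑ a_{jk} dz_j ∧ dz_k) = 0` -/
theorem dF2 {a : Cm d → Matrix (Fin d) (Fin d) ℂ} {z : Cm d}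
    (h : ∀ j k, ContDiffAt ℝ 1 (fun y => a y j k) z) (ha : ∀ᶠ y in 𝓝 z, (a y)ᵀ = -a y) :
    ∑ l, eps l *ᵥ DV l (fun y => F2 (a y)) z = 0 ↔ ∀ i j k,
      dz i (fun y => a y j k) z + dz j (fun y => a y k i) z + dz k (fun y => a y i j) z = 0 := by
  simp only [DV_F2 h]
  refine sum_eps_F2 fun l => ?_
  ext j k
  rw [Matrix.transpose_apply, Matrix.neg_apply, dM, Matrix.of_apply, Matrix.of_apply, ← dz_neg]
  refine dz_congr l ?_
  filter_upwards [ha] with y hy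
  have := congrFun (congrFun hy j) k
  simpa using this

/-- weight zero -/
theorem Dw_zero_weight (u : Cm d → FI d → ℂ) (z : Cm d) :
    Dw (fun _ => 0) u z = ∑ l, eps l *ᵥ DV l u z := by
  rw [Dw]
  refine Finset.sum_congr rfl fun l _ => ?_
  have h1 : dz l (cw fun _ : Cm d => (0 : ℝ)) z = 0 := by
    show dz l (fun _ : Cm d => ((0 : ℝ) : ℂ)) z = 0
    exact dz_const l _
  rw [h1, zero_smul, sub_zero]

/-! ### norms -/

theorem pr_eq_dot (u v : FI d → ℂ) : pr u v = star v ⬝ᵥ u := by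
  simp only [pr, dotProduct, Pi.star_apply]
  exact Finset.sum_congr rfl fun I _ => by rw [mul_comm]; rfl

theorem pr_eps (k : Fin d) (u v : FI d → ℂ) : pr (eps k *ᵥ u) v = pr u (iot k *ᵥ v) := by
  rw [pr_eq_dot, pr_eq_dot, Matrix.dotProduct_mulVec, Matrix.star_mulVec, iot_conjTranspose]

theorem pr_ev_empty (u : FI d → ℂ) : pr (ev ∅) u = conj (u ∅) := by
  simp [pr, ev, Pi.single_apply]

theorem pr_F1 (b c : Fin d → ℂ) : pr (F1 b) (F1 c) = ∑ k, b k * conj (c k) := by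
  rw [F1_eq b]
  have h1 : ∀ (s : Finset (Fin d)) (f : Fin d → FI d → ℂ) (v : FI d → ℂ),
      pr (∑ k ∈ s, f k) v = ∑ k ∈ s, pr (f k) v := by
    intro s f v
    simp only [pr, Finset.sum_apply, Finset.sum_mul]
    exact Finset.sum_comm
  rw [h1]
  refine Finset.sum_congr rfl fun k _ => ?_
  have h2 : ∀ (c : ℂ) (u v : FI d → ℂ), pr (c • u) v = c * pr u v := by
    intro c u v
    simp only [pr, Pi.smul_apply, smul_eq_mul, Finset.mul_sum, mul_assoc]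
  rw [h2, pr_eps, iot_F1, pr_ev_empty, Pi.smul_apply, ev_empty_empty, smul_eq_mul, mul_one]

theorem pr_F2 (a : Matrix (Fin d) (Fin d) ℂ) {c : Matrix (Fin d) (Fin d) ℂ} (hc : cᵀ = -c) :
    pr (F2 a) (F2 c) = (1 / 2 : ℂ) * ∑ i, ∑ j, a i j * conj (c i j) := by
  have h1 : ∀ (s : Finset (Fin d)) (f : Fin d → FI d → ℂ) (v : FI d → ℂ),
      pr (∑ k ∈ s, f k) v = ∑ k ∈ s, pr (f k) v := by
    intro s f v
    simp only [pr, Finset.sum_apply, Finset.sum_mul]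
    exact Finset.sum_comm
  have h2 : ∀ (c : ℂ) (u v : FI d → ℂ), pr (c • u) v = c * pr u v := by
    intro c u v
    simp only [pr, Pi.smul_apply, smul_eq_mul, Finset.mul_sum, mul_assoc]
  rw [F2_eq a, h2, h1]
  congr 1
  refine Finset.sum_congr rfl fun i _ => ?_
  rw [h1]
  refine Finset.sum_congr rfl fun j _ => ?_
  rw [h2, pr_eps, iot_F2 hc, pr_eps, iot_F1, pr_ev_empty, Pi.smul_apply, ev_empty_empty,
    smul_eq_mul, mul_one]

theorem sum_norm_F1 (b : Fin d → ℂ) : ∑ I, ‖F1 b I‖ ^ 2 = ∑ k, ‖b k‖ ^ 2 := by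
  have h := pr_F1 b b
  simp only [pr, Complex.mul_conj'] at h
  exact_mod_cast h

theorem sum_norm_F2 {a : Matrix (Fin d) (Fin d) ℂ} (ha : aᵀ = -a) :
    ∑ I, ‖F2 a I‖ ^ 2 = (1 / 2) * ∑ i, ∑ j, ‖a i j‖ ^ 2 := by
  have h := pr_F2 a ha
  simp only [pr, Complex.mul_conj'] at h
  have h3 : (((∑ I, ‖F2 a I‖ ^ 2 : ℝ)) : ℂ) = (((1 / 2) * ∑ i, ∑ j, ‖a i j‖ ^ 2 : ℝ) : ℂ) := by
    push_cast
    rw [h]
  exact_mod_cast h3

/-- the Hermitian product of forms of degree one -/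
theorem hw_F1 {w : Cm d → Matrix (Fin d) (Fin d) ℂ} {z : Cm d} (b c : Fin d → ℂ) :
    hw (fun _ => 0) w z (F1 b) (F1 c) =
      (w z).det * ∑ k, ((w z)⁻¹ *ᵥ b) k * conj (c k) := by
  rw [hw, hp, rho, Ld, lam_F1, pr_F1]
  simp

/-- the Hermitian product of forms of degree two -/
theorem hw_F2 {w : Cm d → Matrix (Fin d) (Fin d) ℂ} {z : Cm d} (a : Matrix (Fin d) (Fin d) ℂ)
    {c : Matrix (Fin d) (Fin d) ℂ} (hc : cᵀ = -c) :
    hw (fun _ => 0) w z (F2 a) (F2 c) = (w z).det * ((1 / 2 : ℂ) *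
      ∑ i, ∑ j, ((w z)⁻¹ * a * (w z)⁻¹ᵀ) i j * conj (c i j)) := by
  rw [hw, hp, rho, Ld, lam_F2, pr_F2 _ hc]
  simp

end Vale.Agent.P281.H89.HK
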