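import Vale.Agent.P281.H624.HK.Pot
import Vale.Agent.P281.H83.HK.Defs

/-!
# P281, project T-HK, block HT, second half (helper89)
-/

open Set Filter Metric MeasureTheory Vale.Agent.P272.K
open scoped Topology ContDiff ComplexConjugate ComplexOrder

noncomputable section

namespace Vale.Agent.P281.H89.HK

open Vale.Agent.P281.H64.TK Vale.Agent.P281.H64.TK.TS Vale.Agent.P272.K.C2
open Vale.Agent.P281.H83.HK Vale.Agent.P281.H624.TS Vale.Agent.P281.H624.HK

variable {d : ℕ}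

/-! ### the `(2,0)`-part -/

theorem c20_sub (a b : L2 d) : c20 (a - b) = c20 a - c20 b := by
  ext j k
  simp only [c20, Matrix.of_apply, Matrix.sub_apply, sub_apply]
  ring

theorem c20_add (a b : L2 d) : c20 (a + b) = c20 a + c20 b := by
  ext j k
  simp only [c20, Matrix.of_apply, Matrix.add_apply, add_apply]
  ring

theorem c20_smul (c : ℂ) (a : L2 d) : c20 (c • a) = c • c20 a := by
  ext j k
  simp only [c20, Matrix.of_apply, Matrix.smul_apply, smul_apply, smul_eq_mul]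
  ring

theorem mulVec_single' (J : Matrix (Fin d) (Fin d) ℂ) (p : Fin d) (c : ℂ) (j : Fin d) :
    J.mulVec (Pi.single p c) j = c * J j p := by
  simp [Matrix.mulVec, dotProduct, Pi.single_apply, mul_comm]

theorem c20_pull {a a' : L2 d} (ha : ∀ u v, a' u v = -a' v u) {J : Matrix (Fin d) (Fin d) ℂ}
    (h : ∀ u v, a u v = a' (J.mulVec u) (J.mulVec v)) :
    c20 a = J.transpose * c20 a' * J := by
  ext p q
  have e : ∀ x y : ℂ, a (Pi.single p x) (Pi.single q y) = ∑ j, ∑ k,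
      (c20 a' j k * (x * J j p * (y * J k q)) +
      c11 a' j k * (x * J j p * conj (y * J k q) - y * J j q * conj (x * J k p)) +
        c02 a' j k * (conj (x * J j p) * conj (y * J k q))) := by
    intro x y
    rw [h, decomp ha]
    simp only [mulVec_single']
  have r : (J.transpose * c20 a' * J) p q = ∑ j, ∑ k, c20 a' j k * (J j p * J k q) := by
    simp only [Matrix.mul_apply, Matrix.transpose_apply, Finset.sum_mul]
    rw [Finset.sum_comm]
    exact Finset.sum_congr rfl fun j _ => Finset.sum_congr rfl fun k _ => by ring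
  rw [r]
  have c : c20 a p q = (a (Pi.single p 1) (Pi.single q 1) -
      Complex.I * a (Pi.single p Complex.I) (Pi.single q 1) -
      Complex.I * a (Pi.single p 1) (Pi.single q Complex.I) -
      a (Pi.single p Complex.I) (Pi.single q Complex.I)) / 4 := rfl
  rw [c, e, e, e, e, Finset.mul_sum, Finset.mul_sum, ← Finset.sum_sub_distrib,
    ← Finset.sum_sub_distrib, ← Finset.sum_sub_distrib, Finset.sum_div]
  refine Finset.sum_congr rfl fun j _ => ?_
  rw [Finset.mul_sum, Finset.mul_sum, ← Finset.sum_sub_distrib,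
    ← Finset.sum_sub_distrib, ← Finset.sum_sub_distrib, Finset.sum_div]
  refine Finset.sum_congr rfl fun k _ => ?_
  simp only [map_mul, Complex.conj_I, one_mul]
  generalize c20 a' j k = A
  generalize c11 a' j k = B
  generalize c02 a' j k = C
  generalize J j p = x
  generalize J k q = y
  generalize J j q = s
  generalize conj (J k p) = t
  linear_combination ((-3 * A * x * y + B * (x * conj y - s * t) + C * conj x * conj y) / 4) *
    Complex.I_sq

theorem sm_app {α : Cm d → L2 d} {z : Cm d} (h : ContDiffAt ℝ ∞ α z) (x y : Cm d) :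
    ContDiffAt ℝ ∞ (fun z => α z x y) z := by
  have h1 : ContDiffAt ℝ ∞ (fun z => α z x) z := ContDiffAt.clm_apply (𝕜 := ℝ) (E := Cm d)
    (F := Cm d) (G := Cm d →L[ℝ] ℂ) h contDiffAt_const
  exact ContDiffAt.clm_apply (𝕜 := ℝ) (E := Cm d) (F := Cm d) (G := ℂ) h1 contDiffAt_const

theorem c20_smooth {α : Cm d → L2 d} {z : Cm d} (h : ContDiffAt ℝ ∞ α z) (j k : Fin d) :
    ContDiffAt ℝ ∞ (fun z => c20 (α z) j k) z := by
  simp only [c20, Matrix.of_apply]
  exact ((((sm_app h _ _).sub (contDiffAt_const.mul (sm_app h _ _))).sub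
    (contDiffAt_const.mul (sm_app h _ _))).sub (sm_app h _ _)).div_const 4

theorem fd_app {α : Cm d → L2 d} {z : Cm d} (h : DifferentiableAt ℝ α z) (u x y : Cm d) :
    fderiv ℝ (fun z => α z x y) z u = fderiv ℝ α z u x y := by
  have h1 : HasFDerivAt (fun z => α z x) ((ContinuousLinearMap.apply ℝ (Cm d →L[ℝ] ℂ) x).comp
      (fderiv ℝ α z)) z :=
    HasFDerivAt.comp (𝕜 := ℝ) (E := Cm d) (F := L2 d) (G := Cm d →L[ℝ] ℂ)
      (g := fun a => ContinuousLinearMap.apply ℝ (Cm d →L[ℝ] ℂ) x a) (f := α) z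
      (ContinuousLinearMap.hasFDerivAt _) h.hasFDerivAt
  have h2 : HasFDerivAt (fun z => α z x y) ((ContinuousLinearMap.apply ℝ ℂ y).comp
      ((ContinuousLinearMap.apply ℝ (Cm d →L[ℝ] ℂ) x).comp (fderiv ℝ α z))) z :=
    HasFDerivAt.comp (𝕜 := ℝ) (E := Cm d) (F := Cm d →L[ℝ] ℂ) (G := ℂ)
      (g := fun a => ContinuousLinearMap.apply ℝ ℂ y a) (f := fun z => α z x) z
      (ContinuousLinearMap.hasFDerivAt _) h1
  rw [h2.fderiv]
  rfl

theorem dz_app {α : Cm d → L2 d} {z : Cm d} (h : DifferentiableAt ℝ α z) (l : Fin d)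
    (x y : Cm d) : dz l (fun z => α z x y) z =
      (fderiv ℝ α z (rb (l, 0)) x y - Complex.I * fderiv ℝ α z (rb (l, 1)) x y) / 2 := by
  rw [dz, fd_app h, fd_app h]
  rfl

theorem dz_c20 {α : Cm d → L2 d} {z : Cm d} (h : ContDiffAt ℝ ∞ α z) (l j k : Fin d) :
    dz l (fun z => c20 (α z) j k) z =
      (dz l (fun z => α z (rb (j, 0)) (rb (k, 0))) z -
        Complex.I * dz l (fun z => α z (rb (j, 1)) (rb (k, 0))) z -
        Complex.I * dz l (fun z => α z (rb (j, 0)) (rb (k, 1))) z -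
        dz l (fun z => α z (rb (j, 1)) (rb (k, 1))) z) / 4 := by
  have hd : ∀ x y, DifferentiableAt ℝ (fun z => α z x y) z := fun x y =>
    (sm_app h x y).differentiableAt (by simp)
  have hc : ∀ x y, DifferentiableAt ℝ (fun z => Complex.I * α z x y) z := fun x y =>
    (hd x y).const_mul _
  simp only [c20, Matrix.of_apply, div_eq_mul_inv]
  rw [dz_mul_const, dz_sub, dz_sub, dz_sub, dz_const_mul _ _ (hd _ _), dz_const_mul _ _ (hd _ _)]
  · exact hd _ _
  · exact hc _ _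
  · exact (hd _ _).sub (hc _ _)
  · exact hc _ _
  · exact ((hd _ _).sub (hc _ _)).sub (hc _ _)
  · exact hd _ _
  · exact (((hd _ _).sub (hc _ _)).sub (hc _ _)).sub (hd _ _)

theorem c20_closed {α : Cm d → L2 d} {z : Cm d} (h : ContDiffAt ℝ ∞ α z)
    (hc : ∀ u v w, fderiv ℝ α z u v w + fderiv ℝ α z v w u + fderiv ℝ α z w u v = 0)
    (l j k : Fin d) :
    dz l (fun z => c20 (α z) j k) z + dz j (fun z => c20 (α z) k l) z +
      dz k (fun z => c20 (α z) l j) z = 0 := by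
  have hd : DifferentiableAt ℝ α z := h.differentiableAt (by simp)
  simp only [dz_c20 h, dz_app hd]
  have e := fun a b c : Fin 2 => hc (rb (l, a)) (rb (j, b)) (rb (k, c))
  have := Complex.I_sq
  linear_combination (1 / 8 : ℂ) * e 0 0 0 - (Complex.I / 8) * (e 1 0 0 + e 0 1 0 + e 0 0 1) -
    (1 / 8 : ℂ) * (e 1 1 0 + e 1 0 1 + e 0 1 1) + (Complex.I / 8) * e 1 1 1 +
    ((fderiv ℝ α z (rb (l, 1)) (rb (j, 1)) (rb (k, 0)) +
      fderiv ℝ α z (rb (l, 1)) (rb (j, 0)) (rb (k, 1)) +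
      fderiv ℝ α z (rb (j, 1)) (rb (k, 1)) (rb (l, 0)) +
      fderiv ℝ α z (rb (j, 1)) (rb (k, 0)) (rb (l, 1)) +
      fderiv ℝ α z (rb (k, 1)) (rb (l, 1)) (rb (j, 0)) +
      fderiv ℝ α z (rb (k, 1)) (rb (l, 0)) (rb (j, 1))) / 8) * this

section
variable {E Γ : Type} [TopologicalSpace E] [Group Γ] [MulAction Γ E]

/-- The 1-form of type `(1,0)` with the coefficients `v`. -/
def b10 (v : Fin d → ℂ) : L1 d := of1 v 0

theorem b10_apply (v : Fin d → ℂ) (x : Cm d) : b10 v x = ∑ k, v k * x k := by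
  rw [b10, of1_apply]
  exact Finset.sum_congr rfl fun k _ => by simp

theorem b10_I (v : Fin d → ℂ) (x : Cm d) : b10 v (Complex.I • x) = Complex.I * b10 v x := by
  rw [b10_apply, b10_apply, Finset.mul_sum]
  exact Finset.sum_congr rfl fun k _ => by rw [Pi.smul_apply, smul_eq_mul]; ring

theorem b10_f1 {S : Sheets d E Γ} {b : Fin S.N → Cm d → Fin d → ℂ}
    (hb : ∀ i k, ContDiffOn ℝ ∞ (fun z => b i z k) (ball 0 3))
    (hc : ∀ i j, ∀ z ∈ ball (0 : Cm d) 3, ∀ z' ∈ ball (0 : Cm d) 3, ∀ θ : Cm d → Cm d,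
      AnalyticAt ℂ θ z → θ z = z' → (∀ᶠ u in 𝓝 z, S.σ i u = S.σ j (θ u)) →
        b i z = (jac θ z).transpose.mulVec (b j z')) :
    F1On S univ (fun i y => b10 (b i y)) where
  smooth i z hz _ :=
    (sm_of1 (p := b i) (q := fun _ => 0) (hb i) (fun k => contDiffOn_const)).contDiffAt
      (isOpen_ball.mem_nhds hz)
  change i j z hz z' hz' _ ψ hψ v := by
    obtain ⟨θ, t1, t2, t3, t4⟩ := tr_hol S hz hz' hψ
    rw [fd_mulVec t1 t4, b10_apply, b10_apply, hc i j z hz z' hz' θ t1 t2 t3]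
    simp only [Matrix.mulVec, dotProduct, Matrix.transpose_apply, Finset.sum_mul, Finset.mul_sum]
    rw [Finset.sum_comm]
    exact Finset.sum_congr rfl fun j _ => Finset.sum_congr rfl fun k _ => by ring

theorem c20_d1_b10 {v : Cm d → Fin d → ℂ} {z : Cm d} (hz : z ∈ ball (0 : Cm d) 3)
    (hv : ∀ k, ContDiffOn ℝ ∞ (fun y => v y k) (ball 0 3)) (j k : Fin d) :
    c20 (d1 (fun y => b10 (v y)) z) j k = dz j (fun y => v y k) z - dz k (fun y => v y j) z :=
  c20_d1 (p := v) (q := fun _ => 0) isOpen_ball hz hv (fun _ => contDiffOn_const) j k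

end

/-- **HT, first half** (helper189): a smooth `(2,0)`-form `u` with `∂u = 0` is a closed holomorphic
2-form plus a limit in `L²` of forms `∂v`. -/
def H2cStmt : Prop :=
  ∀ (d : ℕ) (E Γ : Type) [TopologicalSpace E] [T2Space E] [Group Γ] [Subsingleton Γ]
    [MulAction Γ E] [ContinuousConstSMul Γ E] [PreconnectedSpace E] (S : Sheets d E Γ)
    (w u : Fin S.N → Cm d → Matrix (Fin d) (Fin d) ℂ), 2 ≤ d → Kah S w →
    (∀ i j k, ContDiffOn ℝ ∞ (fun z => u i z j k) (ball 0 3)) →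
    (∀ i, ∀ z ∈ ball (0 : Cm d) 3, (u i z).transpose = -u i z) →
    (∀ i j, ∀ z ∈ ball (0 : Cm d) 3, ∀ z' ∈ ball (0 : Cm d) 3, ∀ θ : Cm d → Cm d,
      AnalyticAt ℂ θ z → θ z = z' → (∀ᶠ u in 𝓝 z, S.σ i u = S.σ j (θ u)) →
        u i z = (jac θ z).transpose * u j z' * jac θ z) →
    (∀ i, ∀ z ∈ ball (0 : Cm d) 3, ∀ j k l, dz l (fun z => u i z j k) z +
      dz j (fun z => u i z k l) z + dz k (fun z => u i z l j) z = 0) →
    ∃ h, Hol2 S h ∧ ∀ ε > 0, ∃ v : Fin S.N → Cm d → Fin d → ℂ,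
      (∀ i k, ContDiffOn ℝ ∞ (fun z => v i z k) (ball 0 3)) ∧
      (∀ i j, ∀ z ∈ ball (0 : Cm d) 3, ∀ z' ∈ ball (0 : Cm d) 3, ∀ θ : Cm d → Cm d,
        AnalyticAt ℂ θ z → θ z = z' → (∀ᶠ u in 𝓝 z, S.σ i u = S.σ j (θ u)) →
          v i z = (jac θ z).transpose.mulVec (v j z')) ∧
      ∑ i, ∫ z in S.P i, ∑ j, ∑ k, ‖u i z j k - h i z j k -
        (dz j (fun y => v i y k) z - dz k (fun y => v i y j) z)‖ ^ 2 ≤ ε

/-- **HT**. -/
theorem htCore (H : H2cStmt) (d : ℕ) (E Γ : Type) [TopologicalSpace E] [T2Space E] [Group Γ]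
    [Subsingleton Γ] [MulAction Γ E] [ContinuousConstSMul Γ E] [PreconnectedSpace E]
    (S : Sheets d E Γ) (w : Fin S.N → Cm d → Matrix (Fin d) (Fin d) ℂ)
    (α : Fin S.N → Cm d → L2 d) (hd : 2 ≤ d) (hw : Kah S w) (hα : Cl2 S α) :
    ∃ h, Hol2 S h ∧ ∀ ε > 0, ∃ β : Fin S.N → Cm d → L1 d, F1On S univ β ∧
      (∀ i, ∀ z ∈ ball (0 : Cm d) 3, ∀ v, β i z (Complex.I • v) = Complex.I * β i z v) ∧
      ∑ i, ∫ z in S.P i, ∑ j, ∑ k, ‖(c20 (α i z - d1 (β i) z) - h i z) j k‖ ^ 2 < ε := by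
  obtain ⟨h, hh, hap⟩ := H d E Γ S w (fun i z => c20 (α i z)) hd hw
    (fun i j k z hz => (c20_smooth (hα.smooth i z hz trivial) j k).contDiffWithinAt)
    (fun i z hz => c20_skew (hα.alt i z hz trivial))
    (fun i j z hz z' hz' θ t1 t2 t3 => c20_pull (hα.alt j z' hz' (mem_univ _)) fun u v => by
      rw [hα.change i j z hz z' hz' trivial θ (hol_tr S t1 t2 t3),
        fd_mulVec t1 (Filter.EventuallyEq.refl _ _), fd_mulVec t1 (Filter.EventuallyEq.refl _ _)])
    (fun i z hz j k l => c20_closed (hα.smooth i z hz trivial) (hα.closed i z hz) l j k)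
  refine ⟨h, hh, fun ε hε => ?_⟩
  obtain ⟨v, v1, v2, v3⟩ := hap (ε / 2) (half_pos hε)
  refine ⟨fun i z => b10 (v i z), b10_f1 v1 v2, fun i z _ x => b10_I _ _, ?_⟩
  refine lt_of_le_of_lt (le_of_eq ?_) (lt_of_le_of_lt v3 (half_lt_self hε))
  refine rI_congr (S := S) fun i z hz => ?_
  refine Finset.sum_congr rfl fun j _ => Finset.sum_congr rfl fun k _ => ?_
  rw [c20_sub, Matrix.sub_apply, Matrix.sub_apply, c20_d1_b10 hz (v1 i)]
  congr 2
  ring

end Vale.Agent.P281.H89.HK
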