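import Vale.Agent.P301.H949.HLAbs

/-!
# P281, project T-HK: decomposition of a vector along the strong kernel and the range of `D`
-/

open Filter Topology Module UniformSpace
open scoped InnerProductSpace
open Vale.Agent.P299.H863 Vale.Agent.P301.H862 Vale.Agent.P301.H949

noncomputable section

namespace Vale.Agent.P281.H89.HK

variable {H : Type*} [NormedAddCommGroup H] [InnerProductSpace ℂ H]

/-- **Decomposition.** A vector of parity `σ` is the sum of an element of the strong kernel and of
a limit of vectors `D v`, `v` of parity `-σ`. -/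
theorem sk_decomp (A : Ell H) {σ : ℤˣ} {z : H} (hz : z ∈ A.pt σ) :
    ∃ z2 ∈ A.sk σ, ∀ ε : ℝ, 0 < ε →
      ∃ v ∈ A.pt (-σ), ‖((A.D v : H) : Completion H) + z2 - (z : Completion H)‖ ≤ ε := by
  set i₁ : H →ₗᵢ[ℂ] Completion H := Completion.toComplₗᵢ with hi₁
  have hcoe : ∀ u : H, i₁ u = (u : Completion H) := fun _ => rfl
  set R : Submodule ℂ (Completion H) := ((A.pt (-σ)).map A.D).map i₁.toLinearMap with hR
  set K : Submodule ℂ (Completion H) := R.topologicalClosure with hK
  have hKc : IsClosed (K : Set (Completion H)) := R.isClosed_topologicalClosure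
  have : CompleteSpace K := hKc.completeSpace_coe
  have : K.HasOrthogonalProjection := inferInstance
  obtain ⟨z1, hz1, z2, hz2, hzz⟩ := K.exists_add_mem_mem_orthogonal (z : Completion H)
  -- `z1` is a limit of vectors `D v`
  have hz1' : ∀ η : ℝ, 0 < η → ∃ v ∈ A.pt (-σ), ‖(A.D v : Completion H) - z1‖ ≤ η := by
    intro η hη
    have h1 : z1 ∈ closure (R : Set (Completion H)) := hz1
    obtain ⟨y, hy, hyz⟩ := Metric.mem_closure_iff.1 h1 η hη
    obtain ⟨_, ⟨v, hv, rfl⟩, rfl⟩ := hy
    refine ⟨v, hv, ?_⟩
    rw [← dist_eq_norm, dist_comm]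
    exact hyz.le
  -- `z2` is orthogonal to all `D u`
  have horth : ∀ v ∈ A.pt (-σ), inner ℂ ((A.D v : H) : Completion H) z2 = 0 := by
    intro v hv
    refine (K.mem_orthogonal z2).1 hz2 _ ?_
    exact R.le_topologicalClosure ⟨A.D v, ⟨v, hv, rfl⟩, rfl⟩
  have hDm : ∀ v ∈ A.pt σ, A.D v ∈ A.pt (-σ) := by
    intro v hv
    rw [← prj_of_mem A hv, D_prj]
    exact prj_mem A _ _
  have hDm' : ∀ v ∈ A.pt (-σ), A.D v ∈ A.pt σ := by
    intro v hv
    rw [← prj_of_mem A hv, D_prj, neg_neg]
    exact prj_mem A _ _
  -- `z2` is orthogonal to the vectors of parity `-σ`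
  have horth2 : ∀ y ∈ A.pt (-σ), inner ℂ (y : Completion H) z2 = 0 := by
    intro y hy
    have e1 : z2 = (z : Completion H) - z1 := by rw [hzz]; abel
    have e2 : inner ℂ (y : Completion H) (z : Completion H) = 0 := by
      rw [Completion.inner_coe, ← inner_conj_symm, inner_of_mem A hz hy, map_zero]
    have e3 : inner ℂ (y : Completion H) z1 = 0 := by
      have hcl : IsClosed {t : Completion H | inner ℂ (y : Completion H) t = 0} :=
        isClosed_eq (by fun_prop) continuous_const
      refine (closure_minimal ?_ hcl) (show z1 ∈ closure (R : Set (Completion H)) from hz1)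
      rintro _ ⟨_, ⟨v, hv, rfl⟩, rfl⟩
      show inner ℂ (y : Completion H) ((A.D v : H) : Completion H) = 0
      rw [Completion.inner_coe, ← inner_conj_symm, inner_of_mem A (hDm' v hv) hy, map_zero]
    rw [e1, inner_sub_right, e2, e3, sub_zero]
  have hweak : ∀ u : H, inner ℂ ((A.D u : H) : Completion H) z2 =
      inner ℂ (u : Completion H) (0 : Completion H) := by
    intro u
    rw [inner_zero_right]
    conv_lhs => rw [← prj_add A σ u, map_add, Completion.coe_add, inner_add_left]
    rw [horth2 _ (hDm _ (prj_mem A σ u)), horth _ (prj_mem A (-σ) u), add_zero]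
  -- `z2` is in the strong kernel
  have hz2' : z2 ∈ A.sk σ := by
    choose w hw1 hw2 using fun n : ℕ => weak_eq_strong (𝕜 := ℂ) (fun u v => A.symm u v)
      A.smoothing A.smoothing A.comm z2 0 hweak (ε := 1 / ((n : ℝ) + 1)) (by positivity)
    -- approximation of `z2` by vectors of parity `σ`
    have happ : ∀ n : ℕ, ∃ y ∈ A.pt σ, ‖(y : Completion H) - z2‖ ≤ 1 / ((n : ℝ) + 1) := by
      intro n
      obtain ⟨v, hv, hv2⟩ := hz1' (1 / ((n : ℝ) + 1)) (by positivity)
      refine ⟨z - A.D v, (A.pt σ).sub_mem hz (hDm' v hv), ?_⟩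
      have e1 : ((z - A.D v : H) : Completion H) - z2 = -(((A.D v : H) : Completion H) - z1) := by
        rw [Completion.coe_sub]
        rw [show (z : Completion H) = z1 + z2 from hzz]
        abel
      rw [e1, norm_neg]
      exact hv2
    choose y hy1 hy2 using happ
    refine ⟨fun n => prj A σ (w n), fun n => prj_mem A σ _, ?_, ?_⟩
    · rw [tendsto_iff_norm_sub_tendsto_zero]
      have hlim : Tendsto (fun n : ℕ => 3 * (1 / ((n : ℝ) + 1))) atTop (𝓝 0) := by
        simpa using (tendsto_one_div_add_atTop_nhds_zero_nat (𝕜 := ℝ)).const_mul 3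
      refine squeeze_zero (fun n => norm_nonneg _) (fun n => ?_) hlim
      have e1 : ((prj A σ (w n) : H) : Completion H) - z2 =
          ((prj A σ (w n - y n) : H) : Completion H) + ((y n : Completion H) - z2) := by
        rw [map_sub, prj_of_mem A (hy1 n), Completion.coe_sub]; abel
      rw [e1]
      refine (norm_add_le _ _).trans ?_
      rw [Completion.norm_coe]
      have e2 : ‖prj A σ (w n - y n)‖ ≤ 1 / ((n : ℝ) + 1) + 1 / ((n : ℝ) + 1) := by
        refine (norm_prj_le A σ _).trans ?_
        rw [← Completion.norm_coe, Completion.coe_sub]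
        have e3 : (w n : Completion H) - y n = ((w n : Completion H) - z2) -
            ((y n : Completion H) - z2) := by abel
        rw [e3]
        exact (norm_sub_le _ _).trans (add_le_add (hw1 n) (hy2 n))
      have := hy2 n
      linarith
    · rw [tendsto_zero_iff_norm_tendsto_zero]
      refine squeeze_zero (fun n => norm_nonneg _) (fun n => ?_)
        (tendsto_one_div_add_atTop_nhds_zero_nat (𝕜 := ℝ))
      rw [D_prj]
      refine (norm_prj_le A _ _).trans ?_
      have := hw2 n
      rwa [sub_zero, Completion.norm_coe] at this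
  refine ⟨z2, hz2', fun ε hε => ?_⟩
  obtain ⟨v, hv, hv2⟩ := hz1' ε hε
  refine ⟨v, hv, ?_⟩
  have e1 : ((A.D v : H) : Completion H) + z2 - (z : Completion H) =
      ((A.D v : H) : Completion H) - z1 := by rw [hzz]; abel
  rw [e1]
  exact hv2

end Vale.Agent.P281.H89.HK
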